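/-
Helper15 — S0175 project, Part II, package DN: the apex density `rhoA`.
Statements are those of `Crest.Agent.Helper32.Spec` (section DN), verbatim.
-/
import Mathlib
import Crest.Agent.Helper32.GeomDefs

set_option autoImplicit false
set_option linter.unusedSectionVars false
open MeasureTheory Set Filter Topology
open scoped ENNReal ContDiff
open Crest.AnalysisR.OT
open Crest.Agent.Helper32

namespace Crest.Agent.Helper15

/-! ### the bump `Θ` with `rhoA0 = Θ²` -/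

/-- the polynomial inside the bump -/
noncomputable def dnPoly {k : ℕ} (ε : ℝ) (x : MS k) : ℝ :=
  ε ^ 2 - (‖x.1‖ ^ 2 - 2 * ε) ^ 2 - ‖x.2‖ ^ 2

/-- the bump `Θ` -/
noncomputable def dnTheta {k : ℕ} (ε : ℝ) (x : MS k) : ℝ := expNegInvGlue (dnPoly ε x)

/-- the closed solid torus -/
def dnClosedTorus {k : ℕ} (ε : ℝ) : Set (MS k) :=
  {x | (‖x.1‖ ^ 2 - 2 * ε) ^ 2 + ‖x.2‖ ^ 2 ≤ ε ^ 2}

theorem dnPoly_contDiff {k : ℕ} (ε : ℝ) : ContDiff ℝ ∞ (dnPoly (k := k) ε) := by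
  unfold dnPoly
  have h1 : ContDiff ℝ ∞ (fun x : MS k => ‖x.1‖ ^ 2) :=
    (contDiff_norm_sq ℝ).comp contDiff_fst
  have h2 : ContDiff ℝ ∞ (fun x : MS k => ‖x.2‖ ^ 2) :=
    (contDiff_norm_sq ℝ).comp contDiff_snd
  exact (contDiff_const.sub ((h1.sub contDiff_const).pow 2)).sub h2

theorem dnTheta_contDiff {k : ℕ} (ε : ℝ) : ContDiff ℝ ∞ (dnTheta (k := k) ε) :=
  expNegInvGlue.contDiff.comp (dnPoly_contDiff ε)

theorem dnTheta_nonneg {k : ℕ} (ε : ℝ) (x : MS k) : 0 ≤ dnTheta ε x := expNegInvGlue.nonneg _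

theorem rhoA0_eq {k : ℕ} (ε : ℝ) (x : MS k) : rhoA0 ε x = (dnTheta ε x) ^ 2 := rfl

theorem dnTheta_ne_zero_iff {k : ℕ} (ε : ℝ) (x : MS k) : dnTheta ε x ≠ 0 ↔ x ∈ torus ε := by
  unfold dnTheta dnPoly
  rw [Ne, expNegInvGlue.zero_iff_nonpos, not_le]
  change _ ↔ (‖x.1‖ ^ 2 - 2 * ε) ^ 2 + ‖x.2‖ ^ 2 < ε ^ 2
  constructor <;> intro h <;> linarith

theorem rhoA0_ne_zero_iff {k : ℕ} (ε : ℝ) (x : MS k) : rhoA0 ε x ≠ 0 ↔ x ∈ torus ε := by
  rw [rhoA0_eq, ← dnTheta_ne_zero_iff, Ne, Ne, sq_eq_zero_iff]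

theorem rhoA0_contDiff {k : ℕ} (ε : ℝ) : ContDiff ℝ ∞ (rhoA0 (k := k) ε) :=
  (dnTheta_contDiff ε).pow 2

theorem rhoA0_nonneg {k : ℕ} (ε : ℝ) (x : MS k) : 0 ≤ rhoA0 ε x := by
  rw [rhoA0_eq]; positivity

theorem torus_subset_dnClosedTorus {k : ℕ} (ε : ℝ) : torus (k := k) ε ⊆ dnClosedTorus ε := by
  intro x hx
  have h : (‖x.1‖ ^ 2 - 2 * ε) ^ 2 + ‖x.2‖ ^ 2 < ε ^ 2 := hx
  change (‖x.1‖ ^ 2 - 2 * ε) ^ 2 + ‖x.2‖ ^ 2 ≤ ε ^ 2
  exact le_of_lt h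

theorem isClosed_dnClosedTorus {k : ℕ} (ε : ℝ) : IsClosed (dnClosedTorus (k := k) ε) := by
  unfold dnClosedTorus
  have h1 : Continuous (fun x : MS k => (‖x.1‖ ^ 2 - 2 * ε) ^ 2 + ‖x.2‖ ^ 2) := by fun_prop
  exact isClosed_le h1 continuous_const

/-- coordinates of a point of the closed torus -/
theorem dnClosedTorus_bounds {k : ℕ} (ε : ℝ) (hε : 0 < ε) (x : MS k) (hx : x ∈ dnClosedTorus ε) :
    ε ≤ ‖x.1‖ ^ 2 ∧ ‖x.1‖ ^ 2 ≤ 3 * ε ∧ ‖x.2‖ ^ 2 ≤ ε ^ 2 := by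
  have hx' : (‖x.1‖ ^ 2 - 2 * ε) ^ 2 + ‖x.2‖ ^ 2 ≤ ε ^ 2 := hx
  have h2 : 0 ≤ ‖x.2‖ ^ 2 := by positivity
  have h3 : (‖x.1‖ ^ 2 - 2 * ε) ^ 2 ≤ ε ^ 2 := by linarith
  have h4 : |‖x.1‖ ^ 2 - 2 * ε| ≤ |ε| := sq_le_sq.mp h3
  rw [abs_of_pos hε] at h4
  have h5 := abs_le.mp h4
  refine ⟨by linarith, by linarith, ?_⟩
  nlinarith [sq_nonneg (‖x.1‖ ^ 2 - 2 * ε)]

theorem isCompact_dnClosedTorus {k : ℕ} (ε : ℝ) (hε : 0 < ε) :
    IsCompact (dnClosedTorus (k := k) ε) := by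
  refine Metric.isCompact_of_isClosed_isBounded (isClosed_dnClosedTorus ε) ?_
  rw [isBounded_iff_forall_norm_le]
  refine ⟨3 * ε + ε + 1, fun x hx => ?_⟩
  obtain ⟨h1, h2, h3⟩ := dnClosedTorus_bounds ε hε x hx
  have hn1 : ‖x.1‖ ≤ 3 * ε + ε + 1 := by
    nlinarith [norm_nonneg x.1, sq_nonneg (‖x.1‖ - 1)]
  have hn2 : ‖x.2‖ ≤ 3 * ε + ε + 1 := by
    have : ‖x.2‖ ≤ ε := (sq_le_sq₀ (norm_nonneg _) hε.le).mp h3
    linarith
  exact max_le hn1 hn2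

theorem rhoA0_support {k : ℕ} (ε : ℝ) : Function.support (rhoA0 (k := k) ε) = torus ε := by
  ext x
  rw [Function.mem_support, rhoA0_ne_zero_iff]

theorem rhoA0_hasCompactSupport {k : ℕ} (ε : ℝ) (hε : 0 < ε) :
    HasCompactSupport (rhoA0 (k := k) ε) := by
  refine HasCompactSupport.of_support_subset_isCompact (isCompact_dnClosedTorus ε hε) ?_
  rw [rhoA0_support]
  exact torus_subset_dnClosedTorus ε

/-- a point of the torus -/
theorem dn_mem_torus {k : ℕ} (ε : ℝ) (hε : 0 < ε) :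
    (((Real.sqrt (2 * ε) : ℝ) : ℂ), (0 : EuclideanSpace ℝ (Fin k))) ∈ torus (k := k) ε := by
  change (‖((Real.sqrt (2 * ε) : ℝ) : ℂ)‖ ^ 2 - 2 * ε) ^ 2 + ‖(0 : EuclideanSpace ℝ (Fin k))‖ ^ 2 < ε ^ 2
  rw [Complex.norm_real, Real.norm_eq_abs, sq_abs, norm_zero, Real.sq_sqrt (by positivity)]
  nlinarith

theorem rhoA0_integral_pos {k : ℕ} (ε : ℝ) (hε : 0 < ε) : 0 < ∫ y : MS k, rhoA0 ε y := by
  refine Continuous.integral_pos_of_hasCompactSupport_nonneg_nonzero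
    (x := (((Real.sqrt (2 * ε) : ℝ) : ℂ), (0 : EuclideanSpace ℝ (Fin k))))
    (rhoA0_contDiff ε).continuous (rhoA0_hasCompactSupport ε hε) (fun x => rhoA0_nonneg ε x) ?_
  exact (rhoA0_ne_zero_iff ε _).mpr (dn_mem_torus ε hε)

theorem rhoA0_integrable {k : ℕ} (ε : ℝ) (hε : 0 < ε) : Integrable (rhoA0 (k := k) ε) :=
  (rhoA0_contDiff ε).continuous.integrable_of_hasCompactSupport (rhoA0_hasCompactSupport ε hε)

/-! ### the Spec statements (section DN) -/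

section DN
variable {k : ℕ} (ε : ℝ) (hε : 0 < ε)
include hε

theorem rhoA_nonneg (x : MS k) : 0 ≤ rhoA ε x := by
  unfold rhoA
  exact div_nonneg (rhoA0_nonneg ε x) (mul_pos (by norm_num) (rhoA0_integral_pos (k := k) ε hε)).le

theorem rhoA_contDiff : ContDiff ℝ ∞ (rhoA (k := k) ε) := by
  unfold rhoA
  exact (rhoA0_contDiff ε).div_const _

theorem rhoA_sqrt_contDiff : ContDiff ℝ ∞ (fun x : MS k => Real.sqrt (rhoA ε x)) := by
  have h : (fun x : MS k => Real.sqrt (rhoA ε x)) =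
      fun x => dnTheta ε x / Real.sqrt (3 * ∫ y : MS k, rhoA0 ε y) := by
    funext x
    unfold rhoA
    rw [Real.sqrt_div (rhoA0_nonneg ε x), rhoA0_eq, Real.sqrt_sq (dnTheta_nonneg ε x)]
  rw [h]
  exact (dnTheta_contDiff ε).div_const _

theorem rhoA_support : Function.support (rhoA (k := k) ε) = torus ε := by
  have hpos := rhoA0_integral_pos (k := k) ε hε
  ext x
  rw [Function.mem_support, ← rhoA0_ne_zero_iff]
  unfold rhoA
  rw [Ne, div_eq_zero_iff, not_or]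
  constructor
  · exact fun h => h.1
  · exact fun h => ⟨h, (mul_pos (by norm_num) hpos).ne'⟩

theorem rhoA_hasCompactSupport : HasCompactSupport (rhoA (k := k) ε) := by
  refine HasCompactSupport.of_support_subset_isCompact (isCompact_dnClosedTorus ε hε) ?_
  rw [rhoA_support ε hε]
  exact torus_subset_dnClosedTorus ε

theorem rhoA_tsupport :
    tsupport (rhoA (k := k) ε) ⊆ {x | (‖x.1‖ ^ 2 - 2 * ε) ^ 2 + ‖x.2‖ ^ 2 ≤ ε ^ 2} := by
  refine closure_minimal ?_ (isClosed_dnClosedTorus ε)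
  rw [rhoA_support ε hε]
  exact torus_subset_dnClosedTorus ε

theorem rhoA_integral : ∫ x : MS k, rhoA ε x = 1 / 3 := by
  have hpos := rhoA0_integral_pos (k := k) ε hε
  unfold rhoA
  rw [integral_div]
  field_simp

theorem rhoA_integrable : Integrable (rhoA (k := k) ε) :=
  (rhoA_contDiff ε hε).continuous.integrable_of_hasCompactSupport (rhoA_hasCompactSupport ε hε)

theorem rhoA_mass : measOfDensity (rhoA (k := k) ε) univ = 1 / 3 := by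
  unfold measOfDensity
  rw [withDensity_apply _ MeasurableSet.univ, Measure.restrict_univ,
    ← ofReal_integral_eq_lintegral_ofReal (rhoA_integrable ε hε)
      (Filter.Eventually.of_forall (fun x => rhoA_nonneg ε hε x)),
    rhoA_integral ε hε]
  rw [ENNReal.ofReal_div_of_pos (by norm_num)]
  simp

theorem rhoA_rot (t : ℝ) (x : MS k) : rhoA ε (rotM t x) = rhoA ε x := by
  have h1 : ‖(rotM t x).1‖ = ‖x.1‖ := by
    unfold rotM
    have h2 : (2 * (Real.pi : ℂ) * (t : ℂ) * Complex.I) = ((2 * Real.pi * t : ℝ) : ℂ) * Complex.I := by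
      push_cast; ring
    simp only
    rw [norm_mul, h2, Complex.norm_exp_ofReal_mul_I, one_mul]
  have h3 : (rotM t x).2 = x.2 := rfl
  unfold rhoA rhoA0
  rw [h1, h3]

omit hε in
theorem closedTorus_subset_Adom (s w2 : ℝ) (hp : GoodParams s w2 ε) :
    {x : MS k | (‖x.1‖ ^ 2 - 2 * ε) ^ 2 + ‖x.2‖ ^ 2 ≤ ε ^ 2} ⊆ Adom s w2 := by
  intro x hx
  obtain ⟨h1, h2, h3⟩ := dnClosedTorus_bounds ε hp.hε x hx
  have hε := hp.hε
  refine ⟨?_, ?_⟩
  · intro h0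
    rw [h0] at h1
    simp at h1
    linarith
  · unfold shF
    have hA : ‖x.1‖ ^ 2 / (4 * w2 ^ 4) ≤ 3 * ε / (4 * w2 ^ 4) :=
      div_le_div_of_nonneg_right h2 (by positivity)
    have hB : 4 * ‖x.2‖ ^ 2 / (2 * w2 ^ 2 + 1) ^ 2 ≤ 4 * ε ^ 2 / (2 * w2 ^ 2 + 1) ^ 2 :=
      div_le_div_of_nonneg_right (by linarith) (by positivity)
    have := hp.hdom
    linarith

end DN

end Crest.Agent.Helper15
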